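/-
Semi-discrete optimal transport: shared definitions for the S0109/S0110 squad (row 82).
Owner: helper43.  FROZEN once landed: do not edit, add new lemmas in new files.
-/
import Mathlib

set_option autoImplicit false
open MeasureTheory
open scoped InnerProductSpace

namespace Crest.Agent.OT

/-- The ambient Euclidean space. -/
abbrev E (d : ℕ) := EuclideanSpace ℝ (Fin d)

variable {d : ℕ} {ι : Type} [Fintype ι]

/-- Value at `x` of the `p`-th affine piece `⟪x, y p⟫ - ψ p`. -/
noncomputable def aff (y : ι → E d) (ψ : ι → ℝ) (p : ι) (x : E d) : ℝ := ⟪x, y p⟫_ℝ - ψ p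

/-- The discrete convex potential `φ(x) = max_p (⟪x, y p⟫ - ψ p)`. -/
noncomputable def pot (y : ι → E d) (ψ : ι → ℝ) (x : E d) : ℝ := ⨆ p, aff y ψ p x

/-- The Laguerre cell of the site `p` inside `K`. -/
def cell (K : Set (E d)) (y : ι → E d) (ψ : ι → ℝ) (p : ι) : Set (E d) :=
  {x | x ∈ K ∧ ∀ q, aff y ψ q x ≤ aff y ψ p x}

/-- Lebesgue mass of the cell. -/
noncomputable def cmass (K : Set (E d)) (y : ι → E d) (ψ : ι → ℝ) (p : ι) : ℝ :=
  (volume (cell K y ψ p)).toReal

/-- First moment of the cell. -/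
noncomputable def cmom (K : Set (E d)) (y : ι → E d) (ψ : ι → ℝ) (p : ι) : E d :=
  ∫ x in cell K y ψ p, x

/-- `S` is a measurable selection of the Laguerre map on `K`: `S x = y p` for some cell `p ∋ x`. -/
def IsLagSel (K : Set (E d)) (y : ι → E d) (ψ : ι → ℝ) (S : E d → E d) : Prop :=
  Measurable S ∧ ∀ x ∈ K, ∃ p, S x = y p ∧ x ∈ cell K y ψ p

/-- The cells of `(y, ψ)` have the prescribed Lebesgue masses `m`. -/
def HasMasses (K : Set (E d)) (y : ι → E d) (ψ : ι → ℝ) (m : ι → ℝ) : Prop :=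
  ∀ p, cmass K y ψ p = m p

/-- `(y, w)` approximates `μ` in the dual `W₁` sense with error `δ`. -/
def IsDiscApprox (μ : Measure (E d)) (y : ι → E d) (w : ι → ℝ) (δ : ℝ) : Prop :=
  ∀ (g : E d → ℝ) (L : NNReal), LipschitzWith L g →
    |∫ v, g v ∂μ - ∑ p, w p * g (y p)| ≤ L * δ

/-- constant of the interpolation inequality (package A) -/
noncomputable def CA (d : ℕ) (R M : ℝ) : ℝ := 32 * d * (M + 1) ^ 2 * (2 * R + 1) ^ d

/-- constant of the gap lemma (package G) -/
noncomputable def CG (d : ℕ) (R : ℝ) : ℝ := 6 * d * (2 * R + 1) ^ d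

end Crest.Agent.OT
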