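import Crest.Agent.Helper43.OT.WeightsStabilityOf
import Crest.Agent.Helper12.OT.MomentStability

/-!
# Row 82 (S0109), WP-M: `weights_stability` (FINAL; statement of `Spec.weights_stability` verbatim)

Stability of the Laguerre weights in the positions of the labelled atoms, from
`weights_stability_of` (segment assembly, `WeightsStabilityOf.lean`) and the moment inequality
(S) `moment_stability` (helper12). No `Spec` import.
-/

set_option autoImplicit false
noncomputable section
open MeasureTheory Filter Topology
open scoped ENNReal NNReal RealInnerProductSpace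

namespace Crest.Agent.Helper75.OT
open Crest.AnalysisR.OT

variable {d : ℕ}

/-- Stability of the Laguerre weights (dual potentials at the atoms) in the positions. -/
theorem weights_stability {K : Set (E d)} (hK : Body K) {R : ℝ} (hR : ∀ x ∈ K, ‖x‖ ≤ R)
    {ι : Type} [Fintype ι] (y z : ι → E d) (m : ι → ℝ) (hm : ∀ i, 0 < m i)
    (hsum : ∑ i, m i = 1) (wy wz : E d → ℝ)
    (hwy : IsLagWeights K (supp y) (mergedMass y m) wy)
    (hwz : IsLagWeights K (supp z) (mergedMass z m) wz) :
    ∑ i, m i * ((wy (y i) - wz (z i)) - ∑ j, m j * (wy (y j) - wz (z j))) ^ 2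
      ≤ 1100 * R ^ 2 * ∑ i, m i * ‖y i - z i‖ ^ 2 :=
  weights_stability_of hK hR (fun S w0 w1 => moment_stability hK hR S w0 w1)
    y z m hm hsum wy wz hwy hwz

end Crest.Agent.Helper75.OT
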